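import Crest.Agent.N218.A.Iso

/-!
# Row 218, block A (helper69): equivariant isotopy extension for a regular path of functions
-/

set_option autoImplicit false
set_option linter.unusedSectionVars false

open Set Filter Topology
open scoped ContDiff InnerProductSpace

noncomputable section

namespace Crest.Agent.N218.Par

/-- uniqueness of integral curves of a bounded smooth field -/
theorem flow_unique {E : Type} [NormedAddCommGroup E] [NormedSpace ℝ E] [FiniteDimensional ℝ E]
    {v : E → E} (hv : ContDiff ℝ ∞ v) {c c' : ℝ → E} (hc : ∀ s, HasDerivAt c (v (c s)) s)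
    (hc' : ∀ s, HasDerivAt c' (v (c' s)) s) (h0 : c 0 = c' 0) (s : ℝ) : c s = c' s := by
  have hv1 : ContDiffOn ℝ 1 v univ := (hv.of_le (by simp)).contDiffOn
  have h1 := (Lib.ODEFlow.flow_of_integralCurve' isOpen_univ hv1 (c := c) (l := s) rfl
    (fun _ _ => mem_univ _) fun r _ => hc r).2
  have h2 := (Lib.ODEFlow.flow_of_integralCurve' isOpen_univ hv1 (c := c') (l := s) h0.symm
    (fun _ _ => mem_univ _) fun r _ => hc' r).2
  rw [← h1, h2]

/-- a function whose derivative vanishes while its value lies in `[-w, w]` -/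
theorem stay {f f' : ℝ → ℝ} (hf : ∀ s, HasDerivAt f (f' s) s) {w : ℝ}
    (h : ∀ s, |f s| ≤ 2 * w → f' s = 0) (hw : 0 < w) {a : ℝ} (ha : |f a| ≤ w) (b : ℝ) :
    f b = f a := by
  have hc : Continuous f := continuous_iff_continuousAt.2 fun s => (hf s).continuousAt
  have hcl : IsClopen {s | f s = f a} := by
    refine ⟨isClosed_eq hc continuous_const, isOpen_iff_mem_nhds.2 fun s hs => ?_⟩
    have h1 : ∀ᶠ r in 𝓝 s, |f r| < 2 * w :=
      hc.abs.continuousAt.eventually_lt continuousAt_const (by
        show |f s| < 2 * w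
        rw [show f s = f a from hs]; linarith)
    obtain ⟨ε, hε, hb⟩ := Metric.eventually_nhds_iff_ball.1 h1
    refine mem_of_superset (Metric.ball_mem_nhds s hε) fun r hr => ?_
    have := (convex_ball s ε).norm_image_sub_le_of_norm_hasDerivWithin_le (C := 0) (f := f)
      (f' := f') (fun r _ => (hf r).hasDerivWithinAt) (fun r hr => by simp [h r (hb r hr).le])
      (Metric.mem_ball_self hε) hr
    have h2 : f r - f s = 0 := by simpa using this
    show f r = f a
    rw [← show f s = f a from hs]; linarith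
  have := hcl.eq_univ ⟨a, rfl⟩
  exact (this ▸ mem_univ b : b ∈ {s | f s = f a})

theorem stay_gt {f f' : ℝ → ℝ} (hf : ∀ s, HasDerivAt f (f' s) s) {w : ℝ}
    (h : ∀ s, |f s| ≤ 2 * w → f' s = 0) (hw : 0 < w) {a : ℝ} (ha : w < f a) (b : ℝ) :
    w < f b := by
  have hc : Continuous f := continuous_iff_continuousAt.2 fun s => (hf s).continuousAt
  by_contra hb
  obtain ⟨s, hs⟩ := mem_range_of_exists_le_of_exists_ge hc ⟨b, not_lt.1 hb⟩ ⟨a, ha.le⟩
  have := stay hf h hw (a := s) (by rw [hs, abs_of_pos hw]) a
  linarith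

variable {Z : Type} [NormedAddCommGroup Z] [InnerProductSpace ℝ Z] [FiniteDimensional ℝ Z]






end Crest.Agent.N218.Par
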