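import Crest.Agent.N218.P.Bd1
import Crest.Agent.N218.P.Defs
import Crest.Agent.N218.P.Kit
import Crest.Agent.N218.P.Mz
import Crest.Agent.N218.P.Isop
import Crest.Agent.N218.A.Mk
import Crest.Agent.N218.A.Sg3
import Crest.Agent.N218.A.Tot

-- ▼ part N218/P/Body
section

/-! Row 218 (helper50): leaf BODY, the retraction of the body by iterated gradient steps. -/

set_option autoImplicit false
open Set Real
open scoped ContDiff RealInnerProductSpace

namespace Crest.Agent.N218.P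
namespace Bd
open Bo

noncomputable section

variable {E : Type} [NormedAddCommGroup E] [InnerProductSpace ℝ E] {e : E} {η : ℝ}

theorem it_sm {F : Type} [NormedAddCommGroup F] [NormedSpace ℝ F] {f : F → F}
    (hf : ContDiff ℝ ∞ f) : ∀ n, ContDiff ℝ ∞ f^[n]
  | 0 => contDiff_id
  | n + 1 => by rw [Function.iterate_succ']; exact hf.comp (it_sm hf n)

theorem it_lip {F : Type} [NormedAddCommGroup F] {f : F → F} (hf : ∀ x y, ‖f x - f y‖ ≤ ‖x - y‖)
    (x y : F) : ∀ n, ‖f^[n] x - f^[n] y‖ ≤ ‖x - y‖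
  | 0 => le_rfl
  | n + 1 => by
    rw [Function.iterate_succ_apply', Function.iterate_succ_apply']
    exact (hf _ _).trans (it_lip hf x y n)

theorem it_id {y : E} (hy : bo e y ≤ 0) (n : ℕ) : (T e η)^[n] y = y :=
  Function.iterate_fixed (T_id η hy) n

theorem Good.nrm (h : SM) (g : Good e η) (y : E) (n : ℕ) : ‖(T e η)^[n] y‖ ≤ ‖y‖ := by
  have := it_lip g.one y 0 n
  rwa [it_id (y := 0) (by linarith [bo_zero h e]), sub_zero, sub_zero] at this

theorem Good.it (h : SM) (g : Good e η) {y : E} (hy : ‖y‖ ≤ 141) (hb : 0 < bo e y) :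
    ∀ n, 0 < bo e ((T e η)^[n] y) ∧
      ‖(T e η)^[n] y - y‖ ≤ 1128 * (bo e y - bo e ((T e η)^[n] y))
  | 0 => ⟨hb, by simp⟩
  | n + 1 => by
    obtain ⟨a, b⟩ := Good.it h g hy hb n
    obtain ⟨c, d, -⟩ := g.step _ ((g.nrm h y n).trans hy) a
    rw [Function.iterate_succ_apply']
    refine ⟨c, ?_⟩
    have := norm_sub_le_norm_sub_add_norm_sub (T e η ((T e η)^[n] y)) ((T e η)^[n] y) y
    linarith

theorem Good.lt (h : SM) (g : Good e η) {y : E} (hy : ‖y‖ ≤ 141) (hb : 0 < bo e y) (n : ℕ) :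
    bo e ((T e η)^[n + 1] y) < bo e y := by
  obtain ⟨a, b⟩ := g.it h hy hb n
  obtain ⟨-, -, d⟩ := g.step _ ((g.nrm h y n).trans hy) a
  rw [Function.iterate_succ_apply']
  have := mul_pos g.pos (stp a)
  linarith [norm_nonneg ((T e η)^[n] y - y)]

theorem Good.dn (h : SM) (g : Good e η) (he : ‖e‖ = 1) {y : E} (hy : ‖y‖ ≤ 141) {v : ℝ}
    (hv : 0 < v) : ∀ n : ℕ, bo e ((T e η)^[n] y) ≤ v ∨
      bo e ((T e η)^[n] y) ≤ 142 - n * (η * st v / 636192)
  | 0 => by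
    have h1 := real_inner_le_norm e y
    rw [he, one_mul] at h1
    have h2 := pow_le_pow_left₀ (norm_nonneg _) hy 2
    have h3 : max (‖y‖ ^ 2 / 10000 - 3 / 4) (⟪e, y⟫ - 1) ≤ 141 :=
      max_le (by linarith) (by linarith)
    right; simp only [Function.iterate_zero, id, Nat.cast_zero]
    linarith [bo_le h e y]
  | n + 1 => by
    have ih := Good.dn h g he hy hv n
    rw [Function.iterate_succ_apply']
    set z := (T e η)^[n] y
    rcases le_or_gt (bo e z) 0 with c | c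
    · left; rw [T_id η c]; linarith
    obtain ⟨-, -, d⟩ := g.step z ((g.nrm h y n).trans hy) c
    have h1 := mul_pos g.pos (stp c)
    rcases le_or_gt (bo e z) v with c' | c'
    · left; linarith
    · have h2 := mul_le_mul_of_nonneg_left (stm c'.le) g.pos.le
      right; push_cast
      rcases ih with ih | ih <;> linarith

/-- the profile of one step -/
def P1 (η u : ℝ) : ℝ := u - η * st u

theorem T_flat (h : SM) {y : E} (hy : ‖y‖ ≤ 40) :
    T e η y = y - (η * st (⟪e, y⟫ - 1)) • e := by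
  rcases le_total ⟪e, y⟫ (1 / 2) with c | c
  · rw [T_id η (by linarith [bo_in h hy c]), st0 (by linarith)]; simp
  · rw [T, bo_top h hy c, gr_top hy c, smul_smul]

theorem Good.flat (h : SM) (g : Good e η) (he : ‖e‖ = 1) {y : E} (hy : ‖y‖ ≤ 40) :
    ∀ n, (T e η)^[n] y = y - (⟪e, y⟫ - 1 - (P1 η)^[n] (⟪e, y⟫ - 1)) • e
  | 0 => by simp
  | n + 1 => by
    have ih := Good.flat h g he hy n
    have hee : ⟪e, e⟫ = 1 := by rw [real_inner_self_eq_norm_sq, he]; norm_num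
    have h1 : ⟪e, (T e η)^[n] y⟫ - 1 = (P1 η)^[n] (⟪e, y⟫ - 1) := by
      rw [ih, inner_sub_right, real_inner_smul_right, hee]; ring
    rw [Function.iterate_succ_apply', Function.iterate_succ_apply',
      T_flat h ((g.nrm h y n).trans hy), h1, ih, P1]
    module

theorem Good.pit (g : Good e η) {u : ℝ} (hu : 0 < u) :
    ∀ n, 0 < (P1 η)^[n] u ∧ (P1 η)^[n] u ≤ u ∧ (P1 η)^[n + 1] u < u
  | 0 => ⟨hu, le_rfl, by have := mul_pos g.pos (stp hu); simp [P1, this]⟩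
  | n + 1 => by
    obtain ⟨a, b, c⟩ := Good.pit g hu n
    have h1 := g.p1 _ 0 a.le
    rw [st0 le_rfl] at h1
    have h2 : 0 < (P1 η)^[n + 1] u := by rw [Function.iterate_succ_apply', P1]; linarith
    refine ⟨h2, c.le, ?_⟩
    rw [Function.iterate_succ_apply', P1]
    linarith [mul_pos g.pos (stp h2)]

theorem Good.plip (g : Good e η) (u u' : ℝ) : ‖P1 η u - P1 η u'‖ ≤ ‖u - u'‖ := by
  wlog c : u' ≤ u generalizing u u'
  · rw [norm_sub_rev, norm_sub_rev u]; exact this _ _ (not_le.1 c).le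
  have h1 := g.p1 u u' c
  have h2 := mul_nonneg g.pos.le (sub_nonneg.2 (stm c))
  rw [Real.norm_of_nonneg (sub_nonneg.2 c), Real.norm_eq_abs, abs_le, P1, P1]
  constructor <;> linarith

end

end Bd

open Bo Bd in
theorem body (h : SM) : BODY := fun E _ _ _ e he w w0 w1 => by
  obtain ⟨η, g⟩ := good h he
  have d0 : 0 < η * st (w / 4) / 636192 := by
    have := mul_pos g.pos (stp (show 0 < w / 4 by linarith)); positivity
  obtain ⟨n, hn⟩ := exists_nat_ge (142 / (η * st (w / 4) / 636192))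
  rw [div_le_iff₀ d0] at hn
  have inn : ∀ y : E, ‖y‖ ≤ 141 → bo e ((T e η)^[n + 1] y) ≤ w / 4 := fun y hy => by
    rcases g.dn h he hy (show 0 < w / 4 by linarith) (n + 1) with c | c
    · exact c
    · push_cast at c; linarith
  have hee : ⟪e, e⟫ = 1 := by rw [real_inner_self_eq_norm_sq, he]; norm_num
  have pid : ∀ u : ℝ, u ≤ 0 → (P1 η)^[n + 1] u = u := fun u hu =>
    Function.iterate_fixed (by simp [P1, st0 hu]) _
  refine ⟨1128, (P1 η)^[n + 1], fun y => (T e η)^[n + 1] (k1 y),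
    ⟨it_sm (contDiff_id.sub (contDiff_const.mul sts)) _, pid, fun u hu => (g.pit hu _).1.le,
      fun u hu => (g.pit hu n).2.2, fun u hu => ?_, fun u u' => it_lip g.plip u u' _⟩,
    (it_sm (T_sm h e η) _).comp (k1_sm h), fun y y' => (it_lip g.one _ _ _).trans (k1_lip h y y'),
    fun y => (g.nrm h _ _).trans ((k1_le h y).trans (by norm_num)), fun A hA y => ?_,
    fun y hy => ?_, fun y hy => ?_, fun y hy => ?_, fun y hy => ?_, fun y hy hw => ?_,
    fun y => inn _ (k1_le h y)⟩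
  · rcases le_total u 0 with c | c
    · rw [pid u c]; linarith
    · have h1 : ‖(u + 1) • e‖ ≤ 40 := by
        rw [norm_smul, he, Real.norm_of_nonneg (by linarith)]; linarith
      have h2 := (u_le h e _).trans (inn _ (h1.trans (by norm_num)))
      rw [g.flat h he h1, inner_sub_right, real_inner_smul_right, real_inner_smul_right, hee,
        mul_one, mul_one, add_sub_cancel_right] at h2
      linarith
  · have h1 : k1 (A y) = A (k1 y) := by simp [k1]
    have h2 : Function.Semiconj A (T e η) (T e η) := fun z => (T_eqv η A hA z).symm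
    show (T e η)^[n + 1] (k1 (A y)) = A ((T e η)^[n + 1] (k1 y))
    rw [h1, h2.iterate_right (n + 1)]
  · show (T e η)^[n + 1] (k1 y) = _
    rw [k1_id h (by linarith), g.flat h he (by linarith)]
  · show (T e η)^[n + 1] (k1 y) = _
    rw [k1_id h (small h (by linarith : bo e y ≤ 1)), it_id hy]
  · obtain ⟨a, b⟩ := k1_bo h e y hy
    exact (g.lt h (k1_le h y) a n).trans_le b
  · exact (g.it h (k1_le h y) (k1_bo h e y hy).1 _).1.le
  · have h1 := small h (hw.trans w1)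
    show ‖(T e η)^[n + 1] (k1 y) - y‖ ≤ 1128 * (bo e y - bo e ((T e η)^[n + 1] (k1 y)))
    rw [k1_id h h1]
    exact (g.it h (by linarith) hy _).2

end Crest.Agent.N218.P
end

-- ▼ part N218/P/Step
section

/-!
# Row 218, block P (helper11): the Newton step on the collar (leaf STEP)
-/

set_option autoImplicit false
open Set Real
open scoped ContDiff RealInnerProductSpace ComplexConjugate

namespace Crest.Agent.N218.P
namespace Step

noncomputable section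

theorem act_lin (c : ℂ) (a b : Y) (s : ℝ) : act c (a + s • b) = act c a + s • act c b := by
  ext i
  fin_cases i <;> simp [act] <;> ring

theorem act_inner {c : ℂ} (hc : ‖c‖ = 1) (a b : Y) : ⟪act c a, act c b⟫ = ⟪a, b⟫ := by
  have h1 : ∀ (n : ℕ) (x y : ℂ), ⟪c ^ n * x, c ^ n * y⟫ = ⟪x, y⟫ := by
    intro n x y
    have h2 : conj (c ^ n) * c ^ n = 1 := by
      rw [Complex.conj_mul', norm_pow, hc]; simp
    rw [Complex.inner, Complex.inner, map_mul]
    congr 1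
    linear_combination (y * conj x) * h2
  have h3 := h1 1
  simp only [pow_one] at h3
  simp only [PiLp.inner_apply, Fin.sum_univ_five, act]
  simp only [Matrix.cons_val_zero, Matrix.cons_val_one, Matrix.cons_val]
  rw [h1, h1, h3, h1]

theorem act_surj {c : ℂ} (hc : ‖c‖ = 1) (b : Y) : ∃ a, act c a = b := by
  have h0 : c ≠ 0 := by rintro rfl; simp at hc
  refine ⟨act c⁻¹ b, ?_⟩
  ext i
  fin_cases i <;> simp [act] <;> field_simp

theorem act_norm {c : ℂ} (hc : ‖c‖ = 1) (a : Y) : ‖act c a‖ = ‖a‖ := by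
  rw [norm_eq_sqrt_real_inner, act_inner hc, ← norm_eq_sqrt_real_inner]

theorem ev_inner (ξ : Y) : ⟪ev, ξ⟫ = u1 ξ := by
  simp only [PiLp.inner_apply, Fin.sum_univ_five, ev, u1]
  simp [Complex.inner]

theorem ev_norm : ‖ev‖ = 1 := by
  rw [norm_eq_sqrt_real_inner, ev_inner]; simp [u1, ev]

theorem u1_lin (a b : Y) (s : ℝ) : u1 (a + s • b) = u1 a + s * u1 b := by
  simp [u1]

/-- the vertical gradient -/
def vg (F : ℂ × Y → ℝ) (z : ℂ × Y) : Y :=
  ∑ i, (fderiv ℝ F z (0, stdOrthonormalBasis ℝ Y i)) • stdOrthonormalBasis ℝ Y i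

variable {F : ℂ × Y → ℝ}

theorem vg_inner (z : ℂ × Y) (ξ : Y) : ⟪vg F z, ξ⟫ = fderiv ℝ F z (0, ξ) := by
  have h : ((0 : ℂ), ξ) =
      ∑ i, ⟪stdOrthonormalBasis ℝ Y i, ξ⟫ • ((0 : ℂ), stdOrthonormalBasis ℝ Y i) := by
    ext1
    · simp [Prod.fst_sum]
    · simp only [Prod.snd_sum, Prod.smul_mk]
      exact ((stdOrthonormalBasis ℝ Y).sum_repr' ξ).symm
  rw [h, map_sum, vg, sum_inner]
  refine Finset.sum_congr rfl fun i _ => ?_
  rw [real_inner_smul_left, map_smul, smul_eq_mul, mul_comm]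

theorem vg_sm (h : ContDiff ℝ ∞ F) : ContDiff ℝ ∞ (vg F) := by
  unfold vg
  refine ContDiff.sum fun i _ => ContDiff.fun_smul ?_ contDiff_const
  exact (h.fderiv_right (m := ∞) (by simp)).clm_apply contDiff_const

theorem line (h : ContDiff ℝ ∞ F) (ζ : ℂ) (η v : Y) (s : ℝ) :
    HasDerivAt (fun t : ℝ => F (ζ, η + t • v)) ⟪vg F (ζ, η + s • v), v⟫ s := by
  rw [vg_inner]
  have h1 : HasDerivAt (fun t : ℝ => (ζ, η + t • v)) ((0 : ℂ), v) s := by
    refine (hasDerivAt_const s ζ).prodMk ?_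
    simpa using ((hasDerivAt_id s).smul_const v).const_add η
  exact ((h.differentiable (by simp)) _).hasFDerivAt.comp_hasDerivAt s h1

theorem vg_eqv (hF : LF F) {c : ℂ} (hc : ‖c‖ = 1) (ζ : ℂ) (η : Y) :
    vg F (c * ζ, act c η) = act c (vg F (ζ, η)) := by
  refine ext_inner_right ℝ fun b => ?_
  obtain ⟨a, rfl⟩ := act_surj hc b
  rw [act_inner hc]
  have h1 := line hF.sm (c * ζ) (act c η) (act c a) 0
  have h2 := line hF.sm ζ η a 0
  simp only [← act_lin, hF.inv _ _ _ hc] at h1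
  simpa using h1.unique h2

theorem vg_out (hF : LF F) {ζ : ℂ} {η : Y} (h : 2 < ‖ζ‖ ∨ 25 < ‖η‖) : vg F (ζ, η) = ev := by
  refine ext_inner_right ℝ fun b => ?_
  have h1 := line hF.sm ζ η b 0
  have h2 : HasDerivAt (fun t : ℝ => u1 η + t * u1 b) (u1 b) 0 := by
    simpa using ((hasDerivAt_id (0 : ℝ)).mul_const (u1 b)).const_add (u1 η)
  have h3 : (fun t : ℝ => F (ζ, η + t • b)) =ᶠ[nhds 0] fun t : ℝ => u1 η + t * u1 b := by
    rcases h with h | h
    · exact Filter.Eventually.of_forall fun t => by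
        simp only [hF.out ζ _ (Or.inl h.le), u1_lin]
    · have h4 : ContinuousAt (fun t : ℝ => ‖η + t • b‖) 0 := by fun_prop
      have h5 : ∀ᶠ t : ℝ in nhds 0, 25 < ‖η + t • b‖ := h4.eventually (lt_mem_nhds (by simpa using h))
      filter_upwards [h5] with t ht
      simp only [hF.out ζ _ (Or.inr (Or.inl ht.le)), u1_lin]
  have h6 := (h1.congr_of_eventuallyEq h3.symm).unique h2
  rw [ev_inner]
  simpa using h6

theorem out_of {z : ℂ × Y} (hz : z ∉ Metric.closedBall (0 : ℂ × Y) 25) :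
    2 < ‖z.1‖ ∨ 25 < ‖z.2‖ := by
  rw [mem_closedBall_zero_iff, Prod.norm_def, not_le, lt_max_iff] at hz
  rcases hz with h | h
  · left; linarith
  · right; exact h

theorem vg_uc (hF : LF F) : UniformContinuous (vg F) := by
  have h1 : HasCompactSupport (fun z => vg F z - ev) :=
    HasCompactSupport.intro (isCompact_closedBall (0 : ℂ × Y) 25) fun z hz => by
      rw [show z = (z.1, z.2) from rfl, vg_out hF (out_of hz), sub_self]
  have h2 := h1.uniformContinuous_of_continuous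
    ((vg_sm hF.sm).continuous.sub continuous_const)
  simpa using h2.add (uniformContinuous_const (b := ev))

theorem vg_lo (hF : LF F) : ∃ m > 0, m ≤ 1 ∧ ∀ z, |F z| ≤ 1 / 1000 → m ≤ ‖vg F z‖ := by
  have hK : IsCompact (Metric.closedBall (0 : ℂ × Y) 25 ∩ {z | |F z| ≤ 1 / 1000}) :=
    (isCompact_closedBall _ _).inter_right
      (isClosed_le hF.sm.continuous.abs continuous_const)
  obtain ⟨m, hm, h⟩ := hK.exists_forall_le' (f := fun z => ‖vg F z‖) (a := 0)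
    (vg_sm hF.sm).continuous.norm.continuousOn (fun z hz => by
      obtain ⟨ξ, hξ⟩ := hF.reg z.1 z.2 hz.2
      refine norm_pos_iff.2 fun h0 => hξ ?_
      rw [← vg_inner, show (z.1, z.2) = z from rfl, h0, inner_zero_left])
  refine ⟨min m 1, lt_min hm one_pos, min_le_right _ _, fun z hz => ?_⟩
  by_cases hb : z ∈ Metric.closedBall (0 : ℂ × Y) 25
  · exact (min_le_left _ _).trans (h z ⟨hb, hz⟩)
  · rw [show z = (z.1, z.2) from rfl, vg_out hF (out_of hb), ev_norm]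
    exact min_le_right _ _

/-- the denominator -/
def dn (F : ℂ × Y → ℝ) (m : ℝ) (z : ℂ × Y) : ℝ := ‖vg F z‖ ^ 2 + st (1 - ‖vg F z‖ ^ 2 / m ^ 2)

theorem dn_pos (m : ℝ) (z : ℂ × Y) : 0 < dn F m z := by
  unfold dn
  by_cases h : vg F z = 0
  · simp [h]
  · have := norm_pos_iff.2 h
    have := Real.smoothTransition.nonneg (1 - ‖vg F z‖ ^ 2 / m ^ 2)
    positivity

theorem dn_eq {m : ℝ} (hm : 0 < m) {z : ℂ × Y} (h : m ≤ ‖vg F z‖) : dn F m z = ‖vg F z‖ ^ 2 := by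
  unfold dn
  have h1 : 1 ≤ ‖vg F z‖ ^ 2 / m ^ 2 := by
    rw [one_le_div (by positivity)]; gcongr
  rw [show st (1 - ‖vg F z‖ ^ 2 / m ^ 2) = 0 from
    Real.smoothTransition.zero_of_nonpos (by linarith), add_zero]

theorem dn_sm (h : ContDiff ℝ ∞ F) (m : ℝ) : ContDiff ℝ ∞ (dn F m) := by
  have h1 : ContDiff ℝ ∞ fun z => ‖vg F z‖ ^ 2 := (vg_sm h).norm_sq ℝ
  exact h1.add (Real.smoothTransition.contDiff.comp (contDiff_const.sub (h1.div_const _)))

/-- the step -/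
def kk (F : ℂ × Y → ℝ) (m : ℝ) (p : ℝ → ℝ) (z : ℂ × Y) : Y :=
  z.2 + (-((F z - p (F z)) / dn F m z)) • vg F z

end
end Step
open Step

theorem step : STEP := by
  intro F hF
  obtain ⟨m, hm, hm1, hlo⟩ := vg_lo hF
  obtain ⟨δ, hδ, huc⟩ := Metric.uniformContinuous_iff.1 (vg_uc hF) (m / 8) (by positivity)
  refine ⟨min (1 / 2000) (min (m / 2) (m * δ / 4)), by positivity, 2 / m, fun w hw hw0 p hp => ?_⟩
  have hw1 : w ≤ 1 / 2000 := hw0.trans (min_le_left _ _)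
  have hw2 : w ≤ m / 2 := hw0.trans ((min_le_right _ _).trans (min_le_left _ _))
  have hw3 : w ≤ m * δ / 4 := hw0.trans ((min_le_right _ _).trans (min_le_right _ _))
  refine ⟨kk F m p, ?_, ?_, ?_, ?_, ?_⟩
  · unfold kk
    refine contDiff_snd.add (ContDiff.fun_smul (ContDiff.neg ?_) (vg_sm hF.sm))
    exact (hF.sm.sub (hp.sm.comp hF.sm)).div (dn_sm hF.sm m) fun z => (dn_pos m z).ne'
  · intro c ζ η hc
    simp only [kk, dn, act_lin, vg_eqv hF hc, hF.inv _ _ _ hc, act_norm hc]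
  · intro ζ η h
    have h1 : 2 < ‖ζ‖ ∨ 25 < ‖η‖ := h.imp (fun h => by linarith) fun h => by linarith
    have h2 := vg_out hF h1
    have h3 : F (ζ, η) = u1 η := hF.out ζ η (h1.imp le_of_lt fun h => Or.inl h.le)
    have h4 : dn F m (ζ, η) = 1 := by
      rw [dn_eq hm (by rw [h2, ev_norm]; exact hm1), h2, ev_norm]; norm_num
    simp only [kk, h2, h3, h4, piH, div_one, neg_smul, sub_eq_add_neg]
  · intro ζ η h
    simp [kk, hp.id _ h]
  · intro ζ η h0 h2
    have hg : m ≤ ‖vg F (ζ, η)‖ := hlo _ (by rw [abs_of_pos h0]; linarith)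
    have hg0 : 0 < ‖vg F (ζ, η)‖ := hm.trans_le hg
    have hp0 := hp.nn _ h0
    have hp1 := hp.lt _ h0
    have hp2 := hp.le (F (ζ, η)) (by linarith)
    obtain ⟨d, hd⟩ : ∃ d, d = F (ζ, η) - p (F (ζ, η)) := ⟨_, rfl⟩
    have hd0 : 0 < d := by linarith
    obtain ⟨v, hv⟩ : ∃ v : Y, v = (-(d / ‖vg F (ζ, η)‖ ^ 2)) • vg F (ζ, η) := ⟨_, rfl⟩
    have hk : kk F m p (ζ, η) = η + v := by simp only [kk, dn_eq hm hg, hv, hd]
    have hvn : ‖v‖ ≤ d / m := by
      rw [hv, norm_smul, norm_neg, Real.norm_of_nonneg (by positivity)]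
      calc d / ‖vg F (ζ, η)‖ ^ 2 * ‖vg F (ζ, η)‖ = d / ‖vg F (ζ, η)‖ := by field_simp
        _ ≤ d / m := by gcongr
    have hvi : ⟪vg F (ζ, η), v⟫ = -d := by
      rw [hv, real_inner_smul_right, real_inner_self_eq_norm_sq]; field_simp
    have hdw : d / m ≤ 2 * w / m := by gcongr; linarith
    have hv1 : ‖v‖ ≤ 1 := by
      refine (hvn.trans hdw).trans ?_
      rw [div_le_one hm]; linarith
    have hv2 : ‖v‖ < δ := by
      refine (hvn.trans hdw).trans_lt ?_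
      rw [div_lt_iff₀ hm]; nlinarith [mul_pos hm hδ]
    obtain ⟨s, hs, hs'⟩ := exists_hasDerivAt_eq_slope (fun t : ℝ => F (ζ, η + t • v))
      (fun t : ℝ => ⟪vg F (ζ, η + t • v), v⟫) one_pos
      (fun t _ => (line hF.sm ζ η v t).continuousAt.continuousWithinAt)
      (fun t _ => line hF.sm ζ η v t)
    simp only [one_smul, zero_smul, add_zero, sub_zero, div_one] at hs'
    have h5 : dist (vg F (ζ, η + s • v)) (vg F (ζ, η)) < m / 8 := by
      refine huc ?_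
      rw [Prod.dist_eq, dist_self, dist_self_add_left, norm_smul, Real.norm_of_nonneg hs.1.le]
      refine max_lt hδ ?_
      nlinarith [hs.1, hs.2, norm_nonneg v]
    have h6 : |⟪vg F (ζ, η + s • v) - vg F (ζ, η), v⟫| ≤ d / 8 := by
      refine (abs_real_inner_le_norm _ _).trans ?_
      rw [← dist_eq_norm]
      calc _ ≤ m / 8 * (d / m) := by gcongr
        _ = d / 8 := by field_simp
    rw [inner_sub_left, hvi, hs', abs_le] at h6
    rw [hk, add_sub_cancel_left]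
    refine ⟨hv1, by linarith [h6.2], by linarith [h6.1], by linarith [h6.2], hvn.trans ?_⟩
    rw [div_mul_eq_mul_div]
    gcongr
    linarith [h6.2]

end Crest.Agent.N218.P
end

-- ▼ part N218/P/Ret1
section

/-!
# Row 218, block A1 (helper84): the local retraction
-/

set_option autoImplicit false
open Set Filter
open scoped ContDiff RealInnerProductSpace ComplexConjugate Topology

namespace Crest.Agent.N218.P
open Mk

noncomputable section

namespace Rt1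

/-- squared horizontal norm -/
def hz (y : Y) : ℝ := ‖y‖ ^ 2 - u1 y ^ 2

theorem hz_sub (y : Y) (s : ℝ) : hz (y - s • ev) = hz y := by
  rw [hz, hz, norm_sub_sq_real, inner_smul_right, real_inner_comm, inner_ev, norm_smul, norm_ev,
    u1_sub, u1_smul, u1_ev, mul_one, Real.norm_eq_abs, sq_abs]
  ring

/-- push down -/
def vl (l : ℝ) (y : Y) : Y := y - (26 * l * st (626 - hz y)) • ev

/-- the trap -/
def Tr (v : ℝ) (y : Y) : Prop := u1 y ≤ v ∧ (u1 y ≤ -25 ∨ 625 ≤ hz y)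

theorem Tr.norm {v : ℝ} {y : Y} (h : Tr v y) : 25 ≤ ‖y‖ := by
  rcases h.2 with a | a
  · linarith [neg_abs_le (u1 y), abs_u1_le y]
  · exact (abs_le_of_sq_le_sq' (by unfold hz at a; nlinarith [sq_nonneg (u1 y)])
      (norm_nonneg y)).2

theorem Tr.act {v : ℝ} {y : Y} {c : ℂ} (hc : ‖c‖ = 1) (h : Tr v y) : Tr v (act c y) := by
  simpa only [Tr, hz, u1_act, norm_act hc] using h

theorem u1_vl {l : ℝ} (hl : 0 ≤ l) (y : Y) : u1 (vl l y) ≤ u1 y := by
  have := Real.smoothTransition.nonneg (626 - hz y)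
  rw [vl, u1_sub, u1_smul, u1_ev, mul_one]
  exact sub_le_self _ (by positivity)

theorem Tr.vl {v l : ℝ} {y : Y} (hl : 0 ≤ l) (h : Tr v y) : Tr v (vl l y) :=
  ⟨(u1_vl hl y).trans h.1, h.2.imp (u1_vl hl y).trans fun a => by rwa [Rt1.vl, hz_sub]⟩

theorem tr_one {v : ℝ} {y : Y} (hv : v ≤ 1) (h : u1 y ≤ v) : Tr v (vl 1 y) := by
  refine ⟨(u1_vl zero_le_one y).trans h, ?_⟩
  rcases le_total (hz y) 625 with a | a
  · left
    rw [vl, u1_sub, u1_smul, u1_ev, st, Real.smoothTransition.one_of_one_le (by linarith)]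
    linarith
  · right; rwa [vl, hz_sub]

theorem norm_vl {l : ℝ} (h0 : 0 ≤ l) (h1 : l ≤ 1) (y : Y) : ‖vl l y‖ ≤ ‖y‖ + 26 := by
  have a := Real.smoothTransition.nonneg (626 - hz y)
  have b := Real.smoothTransition.le_one (626 - hz y)
  refine (norm_sub_le _ _).trans ?_
  rw [norm_smul, norm_ev, mul_one, Real.norm_of_nonneg (by positivity)]
  nlinarith

theorem vl_sm : ContDiff ℝ ∞ fun z : ℝ × Y => vl z.1 z.2 :=
  contDiff_snd.sub (((contDiff_const.mul contDiff_fst).mul (st_sm.comp (contDiff_const.sub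
    ((contDiff_snd.norm_sq ℝ).sub ((u1_sm.comp contDiff_snd).pow 2))))).smul contDiff_const)

section
variable {X A : Type} [NormedAddCommGroup X] [NormedSpace ℝ X] [NormedAddCommGroup A]
  [NormedSpace ℝ A] {a : X → A} {y : X → Y} {x : X}

theorem cmp1 {g : A × Y → Y} (hg : ContDiff ℝ ∞ g) (ha : ContDiffAt ℝ ∞ a x)
    (hy : ContDiffAt ℝ ∞ y x) : ContDiffAt ℝ ∞ (fun x => g (a x, y x)) x :=
  hg.contDiffAt.comp x (ha.prodMk hy)

theorem cmp2 {g : A → Y → Y} (hg : ContDiff ℝ ∞ fun z : A × Y => g z.1 z.2)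
    (ha : ContDiffAt ℝ ∞ a x) (hy : ContDiffAt ℝ ∞ y x) :
    ContDiffAt ℝ ∞ (fun x => g (a x) (y x)) x := cmp1 hg ha hy
end

/-- a local trivialisation of the family -/
structure Tv (F : ℂ × Y → ℝ) (wI : ℝ) (D D' : ℂ × Y → Y) : Prop where
  s : ContDiff ℝ ∞ D
  s' : ContDiff ℝ ∞ D'
  ri : ∀ b y, D (b, D' (b, y)) = y
  out : ∀ b y, 25 ≤ ‖y‖ → D (b, y) = y
  out' : ∀ b y, 25 ≤ ‖y‖ → D' (b, y) = y
  nb : ∀ b y, ‖D (b, y)‖ ≤ max ‖y‖ 25
  nb' : ∀ b y, ‖D' (b, y)‖ ≤ max ‖y‖ 25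
  lv : ∀ b y v, ‖b‖ ≤ 3 → 0 ≤ v → v ≤ wI → (F (b, D (b, y)) ≤ v ↔ u1 y ≤ v)

theorem tv {F : ℂ × Y → ℝ} (hF : LF F) : ∃ wI > 0, ∃ D D', Tv F wI D D' := by
  have sa : ContDiff ℝ ∞ fun z : ℝ × ℂ × Y => (z.2.1 + (6 * (1 - st z.1) : ℝ), z.2.2) :=
    (contDiff_snd.fst.add (Complex.ofRealCLM.contDiff.comp
      (contDiff_const.mul (contDiff_const.sub (st_sm.comp contDiff_fst))))).prodMk contDiff_snd.snd
  have s0 : ∀ t : ℝ, t ≤ 0 → st t = 0 := fun t => Real.smoothTransition.zero_of_nonpos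
  have s1 : ∀ t : ℝ, 1 ≤ t → st t = 1 := fun t => Real.smoothTransition.one_of_one_le
  obtain ⟨w, w0, D, D', a1, a2, a3, a4, a5, -, a7, -⟩ := isop
    (fun z => F (z.2.1 + (6 * (1 - st z.1) : ℝ), z.2.2)) 25 3 (hF.sm.comp sa)
    (fun t b z h => by simp only [hF.out _ z (.inr (.inl h))])
    (fun t b z h => by simp only [s0 t h, s0 0 le_rfl])
    (fun t b z h => by simp only [s1 t h, s1 1 le_rfl])
    (fun t b z h => by
      obtain ⟨ξ, hξ⟩ := hF.reg _ z (h.symm ▸ by norm_num : |F (b + (6 * (1 - st t) : ℝ), z)| ≤ _)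
      refine ⟨ξ, ?_⟩
      have d := hF.sm.differentiable (by simp)
      have e1 := (((d.comp (sa.differentiable (by simp))) (t, b, z)).hasFDerivAt.comp z
        ((hasFDerivAt_prodMk_right t (b, z)).comp z (hasFDerivAt_prodMk_right b z))).fderiv
      have e2 := ((d (b + (6 * (1 - st t) : ℝ), z)).hasFDerivAt.comp z
        (hasFDerivAt_prodMk_right _ z)).fderiv
      have := DFunLike.congr_fun (e1.symm.trans e2) ξ
      simp only [ContinuousLinearMap.comp_apply, ContinuousLinearMap.inr_apply] at this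
      exact fun q => hξ (this.symm.trans q))
  have o := fun b y (h : 25 ≤ ‖y‖) => a5 1 b y (.inr h)
  have o' : ∀ b y, 25 ≤ ‖y‖ → D' (1, b, y) = y := fun b y h => by
    nth_rewrite 1 [← o b y h]; exact a3 _ _ _
  refine ⟨w, w0, fun z => D (1, z), fun z => D' (1, z), a1.comp (by fun_prop),
    a2.comp (by fun_prop), a4 1, o, o', fun b y => ?_, fun b y => ?_, fun b y v hb v0 v1 => ?_⟩
  · rcases le_total 25 ‖D (1, b, y)‖ with h | h
    · have := o' b _ h
      rw [a3] at this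
      exact (congrArg norm this).symm.le.trans (le_max_left _ _)
    · exact h.trans (le_max_right _ _)
  · rcases le_total 25 ‖D' (1, b, y)‖ with h | h
    · have := o b _ h
      rw [a4] at this
      exact (congrArg norm this).symm.le.trans (le_max_left _ _)
    · exact h.trans (le_max_right _ _)
  · obtain ⟨c1, c2, c3⟩ := a7 1 b y hb
    have e : F (b + (6 * (1 - st 0) : ℝ), y) = u1 y := hF.out _ _ (.inl (by
      have := norm_sub_norm_le ((6 * (1 - st 0) : ℝ) : ℂ) (-b)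
      rw [sub_neg_eq_add, add_comm, norm_neg, s0 0 le_rfl] at this
      rw [s0 0 le_rfl]
      norm_num at this ⊢
      linarith))
    simp only [e, s1 1 le_rfl, sub_self, mul_zero, Complex.ofReal_zero, add_zero] at c1 c2 c3
    rcases lt_or_ge w (u1 y) with h | h
    · exact iff_of_false (by linarith [c2 h]) (by linarith)
    rcases lt_or_ge (u1 y) (-w) with h' | h'
    · exact iff_of_true (by linarith [c3 h']) (by linarith)
    · rw [c1 (abs_le.2 ⟨h', h⟩)]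

/-- the contraction in the chart of `a` -/
def cj (D D' : ℂ × Y → Y) (l : ℝ) (a b : ℂ) (y : Y) : Y :=
  act (ph a) (D (conj (ph a) * b, vl l (D' (conj (ph a) * b, act (conj (ph a)) y))))

theorem ncj (a : ℂ) : ‖conj (ph a)‖ = 1 := by simp [ph_norm]

theorem back (a : ℂ) (y : Y) : act (ph a) (act (conj (ph a)) y) = y := by
  rw [← act_mul, mul_cj (ph_norm a), act_one]

section
variable {F : ℂ × Y → ℝ} {wI : ℝ} {D D' : ℂ × Y → Y} (h : Tv F wI D D') {l v : ℝ} {a b : ℂ} {y : Y}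
include h

theorem Tv.zero (a b : ℂ) (y : Y) : cj D D' 0 a b y = y := by
  simp [cj, vl, h.ri, back]

theorem Tv.far (hy : 626 ≤ hz y) : cj D D' l a b y = y := by
  have n : 25 ≤ ‖act (conj (ph a)) y‖ := Tr.norm (v := u1 y) (Tr.act (ncj a) ⟨le_rfl, .inr (by linarith)⟩)
  have e : hz (act (conj (ph a)) y) = hz y := by rw [hz, hz, u1_act, norm_act (ncj a)]
  rw [cj, h.out' _ _ n, vl, e, st, Real.smoothTransition.zero_of_nonpos (by linarith), mul_zero,
    zero_smul, sub_zero, h.out _ _ n, back]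

theorem Tv.tr (hl : 0 ≤ l) (hy : Tr v y) : Tr v (cj D D' l a b y) := by
  have n := hy.act (ncj a)
  rw [cj, h.out' _ _ n.norm, h.out _ _ (n.vl hl).norm]
  exact (n.vl hl).act (ph_norm a)

theorem Tv.nrm (h0 : 0 ≤ l) (h1 : l ≤ 1) {R : ℝ} (hR : 25 ≤ R) (hy : ‖y‖ ≤ R) :
    ‖cj D D' l a b y‖ ≤ R + 26 := by
  rw [cj, norm_act (ph_norm a)]
  refine (h.nb _ _).trans (max_le ((norm_vl h0 h1 _).trans ?_) (by linarith))
  linarith [(h.nb' (conj (ph a) * b) (act (conj (ph a)) y)).trans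
    (max_le (by rwa [norm_act (ncj a)]) hR)]

theorem Tv.low (hF : LF F) (hb : ‖b‖ ≤ 3) (v0 : 0 ≤ v) (v1 : v ≤ wI) (hy : F (b, y) ≤ v) :
    u1 (D' (conj (ph a) * b, act (conj (ph a)) y)) ≤ v := by
  rw [← h.lv (conj (ph a) * b) _ v (by rwa [norm_mul, ncj, one_mul]) v0 v1, h.ri, hF.inv _ _ _ (ncj a)]
  exact hy

theorem Tv.keep (hF : LF F) (hl : 0 ≤ l) (hb : l = 0 ∨ ‖b‖ ≤ 3) (v0 : 0 ≤ v) (v1 : v ≤ wI)
    (hy : F (b, y) ≤ v) : F (b, cj D D' l a b y) ≤ v := by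
  rcases hb with rfl | hb
  · rwa [h.zero]
  have e : b = ph a * (conj (ph a) * b) := by rw [← mul_assoc, mul_cj (ph_norm a), one_mul]
  rw [cj]
  nth_rewrite 1 [e]
  rw [hF.inv _ _ _ (ph_norm a), h.lv _ _ v (by rwa [norm_mul, ncj, one_mul]) v0 v1]
  exact (u1_vl hl _).trans (h.low hF hb v0 v1 hy)

theorem Tv.full (hF : LF F) (hb : ‖b‖ ≤ 3) (v0 : 0 ≤ v) (v1 : v ≤ wI) (v2 : v ≤ 1)
    (hy : F (b, y) ≤ v) : Tr v (cj D D' 1 a b y) := by
  have n := tr_one v2 (h.low (a := a) hF hb v0 v1 hy)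
  rw [cj, h.out _ _ n.norm]
  exact n.act (ph_norm a)

theorem Tv.eqv {c : ℂ} (hc : ‖c‖ = 1) (ha : a = 0 → l = 0) :
    cj D D' l (c * a) (c * b) (act c y) = act c (cj D D' l a b y) := by
  by_cases q : a = 0
  · rw [ha q, h.zero, h.zero]
  have e : conj (c * ph a) * c = conj (ph a) := by
    rw [map_mul, mul_right_comm, cj_mul hc, one_mul]
  rw [cj, cj, ph_mul hc q, ← mul_assoc, ← act_mul (conj (c * ph a)), e, act_mul]

theorem Tv.sm {X : Type} [NormedAddCommGroup X] [NormedSpace ℝ X] {l : X → ℝ} {a b : X → ℂ}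
    {y : X → Y} {x : X} (hl : ContDiffAt ℝ ∞ l x) (ha : ContDiffAt ℝ ∞ a x)
    (hb : ContDiffAt ℝ ∞ b x) (hy : ContDiffAt ℝ ∞ y x) (h0 : a x = 0 → ∀ᶠ x' in 𝓝 x, l x' = 0) :
    ContDiffAt ℝ ∞ (fun x => cj D D' (l x) (a x) (b x) (y x)) x := by
  by_cases q : a x = 0
  · exact hy.congr_of_eventuallyEq ((h0 q).mono fun x' e => by
      show cj D D' (l x') (a x') (b x') (y x') = y x'
      rw [e, h.zero])
  have p : ContDiffAt ℝ ∞ (fun x => ph (a x)) x :=
    ContDiffAt.comp (g := fun q : ℂ × V => ph q.1) (f := fun x => (a x, (0 : V))) x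
      (ph_sm (p := (a x, 0)) q) (ha.prodMk contDiffAt_const)
  have p' := smj p
  unfold cj
  exact cmp2 (g := act) act_sm p (cmp1 h.s (p'.mul hb) (cmp2 (g := vl) vl_sm hl
    (cmp1 h.s' (p'.mul hb) (cmp2 (g := act) act_sm p' hy))))
end

/-- chart weight -/
def ch (a b : ℂ) : ℝ := st (4 * ‖a‖ ^ 2 / (‖a‖ ^ 2 + ‖b‖ ^ 2) - 1)

theorem ch_zero (b : ℂ) : ch 0 b = 0 := Real.smoothTransition.zero_of_nonpos (by simp)

theorem ch_one {a b : ℂ} (h : a ≠ 0) (hab : ‖b‖ ≤ ‖a‖) : ch a b = 1 := by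
  have := norm_pos_iff.2 h
  refine Real.smoothTransition.one_of_one_le ?_
  rw [le_sub_iff_add_le, le_div_iff₀ (by positivity)]
  nlinarith [norm_nonneg b]

theorem ch_sm {X : Type} [NormedAddCommGroup X] [NormedSpace ℝ X] {a b : X → ℂ} {x : X}
    (ha : ContDiffAt ℝ ∞ a x) (hb : ContDiffAt ℝ ∞ b x) (h : a x ≠ 0 ∨ b x ≠ 0) :
    ContDiffAt ℝ ∞ (fun x => ch (a x) (b x)) x ∧
      (a x = 0 → ∀ᶠ x' in 𝓝 x, ch (a x') (b x') = 0) := by
  have n : ‖a x‖ ^ 2 + ‖b x‖ ^ 2 ≠ 0 := by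
    rcases h with h | h <;> (have := norm_pos_iff.2 h; positivity)
  have s : ContDiffAt ℝ ∞ (fun x => 4 * ‖a x‖ ^ 2 / (‖a x‖ ^ 2 + ‖b x‖ ^ 2) - 1) x :=
    ((contDiffAt_const.mul (ha.norm_sq ℝ)).div ((ha.norm_sq ℝ).add (hb.norm_sq ℝ)) n).sub
      contDiffAt_const
  exact ⟨st_sm.contDiffAt.comp x s, fun q => (s.continuousAt.eventually_lt continuousAt_const
    (show _ < (0 : ℝ) by simp [q])).mono fun x' e => Real.smoothTransition.zero_of_nonpos e.le⟩

/-- common weight -/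
def lm (F : ℂ × Y → ℝ) (w : ℝ) (z : ℂ × Y) : ℝ := st (4 * F z / w - 4) * st (5 - ‖z.1‖ ^ 2)

/-- the two contractions after the step -/
def c2c (F : ℂ × Y → ℝ) (w : ℝ) (D D' k : ℂ × Y → Y) (z : (ℂ × ℂ × ℂ) × Y) : Y :=
  cj D D' (lm F w (z.1.1, z.2) * ch z.1.2.2 z.1.2.1) z.1.2.2 z.1.1
    (cj D D' (lm F w (z.1.1, z.2) * ch z.1.2.1 z.1.2.2) z.1.2.1 z.1.1 (k (z.1.1, z.2)))

/-- the retraction -/
def RR (F : ℂ × Y → ℝ) (w : ℝ) (p : ℝ → ℝ) (D D' k : ℂ × Y → Y) (z : (ℂ × ℂ × ℂ) × Y) : Y :=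
  (1 - st (4 * F (z.1.1, z.2) / w - 5)) • c2c F w D D' k z +
    st (4 * F (z.1.1, z.2) / w - 5) • piH p z.2

end Rt1

open Rt1 in
theorem ret1 : RET := by
  intro F hF
  obtain ⟨w1, w10, C, hs⟩ := step F hF
  obtain ⟨wI, wI0, D, D', h⟩ := tv hF
  refine ⟨min (min w1 wI) 1, by positivity, max C 200, by positivity, fun w w0 hw p hp => ?_⟩
  have hw1 : w ≤ w1 := hw.trans ((min_le_left _ _).trans (min_le_left _ _))
  have hwI : w ≤ wI := hw.trans ((min_le_left _ _).trans (min_le_right _ _))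
  have hw2 : w ≤ 1 := hw.trans (min_le_right _ _)
  obtain ⟨k, ks, ke, ko, ki, kc⟩ := hs w w0 hw1 p hp
  have s0 : ∀ t : ℝ, t ≤ 0 → st t = 0 := fun t => Real.smoothTransition.zero_of_nonpos
  have s1 : ∀ t : ℝ, 1 ≤ t → st t = 1 := fun t => Real.smoothTransition.one_of_one_le
  have sn : ∀ t : ℝ, 0 ≤ st t := Real.smoothTransition.nonneg
  have sl : ∀ t : ℝ, st t ≤ 1 := Real.smoothTransition.le_one
  have l0 : ∀ z a b, 0 ≤ lm F w z * ch a b := fun z a b =>
    mul_nonneg (mul_nonneg (sn _) (sn _)) (sn _)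
  have l1 : ∀ z a b, lm F w z * ch a b ≤ 1 := fun z a b =>
    mul_le_one₀ (mul_le_one₀ (sl _) (sn _) (sl _)) (sn _) (sl _)
  have lz : ∀ ζ η, 3 ≤ ‖ζ‖ ∨ F (ζ, η) ≤ w → lm F w (ζ, η) = 0 := fun ζ η q => by
    rcases q with q | q
    · rw [lm, s0 (5 - _) (by simp only; nlinarith), mul_zero]
    · rw [lm, s0 (_ - 4) (by rw [sub_nonpos, div_le_iff₀ w0]; linarith), zero_mul]
  have lb : ∀ ζ η a b, lm F w (ζ, η) * ch a b = 0 ∨ ‖ζ‖ ≤ 3 := fun ζ η a b =>
    (le_total 3 ‖ζ‖).imp_left fun q => by rw [lz ζ η (.inl q), zero_mul]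
  have cz : ∀ l η, lm F w (l.1, η) = 0 → c2c F w D D' k (l, η) = k (l.1, η) := fun l η q => by
    simp only [c2c, q, zero_mul, h.zero]
  have m0 : ∀ ζ η, F (ζ, η) ≤ 5 * w / 4 → st (4 * F (ζ, η) / w - 5) = 0 := fun ζ η q =>
    s0 _ (by rw [sub_nonpos, div_le_iff₀ w0]; linarith)
  have m1 : ∀ ζ η, 3 * w / 2 ≤ F (ζ, η) → st (4 * F (ζ, η) / w - 5) = 1 := fun ζ η q =>
    s1 _ (by rw [le_sub_iff_add_le, le_div_iff₀ w0]; linarith)
  have Rk : ∀ l η, F (l.1, η) ≤ w → RR F w p D D' k (l, η) = k (l.1, η) := fun l η q => by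
    simp only [RR, m0 l.1 η (by linarith), cz l η (lz _ _ (.inr q)), sub_zero, one_smul, zero_smul,
      add_zero]
  have Rp : ∀ l η, 3 * w / 2 ≤ F (l.1, η) ∨ c2c F w D D' k (l, η) = piH p η →
      RR F w p D D' k (l, η) = piH p η := fun l η q => by
    rcases q with q | q
    · simp only [RR, m1 l.1 η q, sub_self, one_smul, zero_smul, zero_add]
    · simp only [RR, q, ← add_smul, sub_add_cancel, one_smul]
  have kk : ∀ ζ η, F (ζ, η) ≤ 2 * w → F (ζ, k (ζ, η)) ≤ w / 2 ∧ ‖k (ζ, η) - η‖ ≤ 1 := fun ζ η q => by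
    rcases le_or_gt (F (ζ, η)) 0 with a | a
    · rw [ki ζ η a]; exact ⟨by linarith, by simp⟩
    · exact ⟨(kc ζ η a q).2.2.2.1, (kc ζ η a q).1⟩
  have out : ∀ l η, 3 ≤ ‖l.1‖ ∨ 30 ≤ ‖η‖ → RR F w p D D' k (l, η) = piH p η := fun l η q => by
    refine Rp l η ?_
    rcases q with q | q
    · exact .inr (by rw [cz l η (lz _ _ (.inl q)), ko _ _ (.inl q)])
    rcases le_total (F (l.1, η)) w with a | a
    · exact .inr (by rw [cz l η (lz _ _ (.inr a)), ko _ _ (.inr (by linarith))])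
    refine (le_total _ _).imp_right fun b => ?_
    rw [hF.out _ _ (.inr (.inl (by linarith)))] at a b
    have f : 626 ≤ hz (piH p η) := by rw [piH, hz_sub, hz]; nlinarith
    simp only [c2c, ko _ η (.inr (by linarith)), h.far f]
  refine ⟨RR F w p D D' k, fun z hz => ContDiffAt.contDiffWithinAt ?_, fun c ζ a b η hc => ?_, out,
    fun l η => ?_, fun l η q => by rw [Rk l η (by linarith), ki _ _ q],
    fun l η a b => by rw [Rk l η b]; exact (kc _ _ a (by linarith)).2.1,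
    fun l η a b => by rw [Rk l η b]; exact (kc _ _ a (by linarith)).2.2.1, fun l η a b => ?_,
    fun l η a b => ?_⟩
  · have n : z.1.2.1 ≠ 0 ∨ z.1.2.2 ≠ 0 := not_and_or.1 fun q => hz (Prod.ext q.1 q.2)
    have sF : ContDiff ℝ ∞ fun z : (ℂ × ℂ × ℂ) × Y => F (z.1.1, z.2) := hF.sm.comp (by fun_prop)
    have sm2 : ContDiff ℝ ∞ fun z : (ℂ × ℂ × ℂ) × Y => st (4 * F (z.1.1, z.2) / w - 5) :=
      st_sm.comp (((contDiff_const.mul sF).div_const w).sub contDiff_const)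
    have sl : ContDiff ℝ ∞ fun z : (ℂ × ℂ × ℂ) × Y => lm F w (z.1.1, z.2) :=
      (st_sm.comp (((contDiff_const.mul sF).div_const w).sub contDiff_const)).mul
        (st_sm.comp (contDiff_const.sub (contDiff_fst.fst.norm_sq ℝ)))
    have a1 : ContDiffAt ℝ ∞ (fun z : (ℂ × ℂ × ℂ) × Y => z.1.2.1) z := by fun_prop
    have a2 : ContDiffAt ℝ ∞ (fun z : (ℂ × ℂ × ℂ) × Y => z.1.2.2) z := by fun_prop
    have a0 : ContDiffAt ℝ ∞ (fun z : (ℂ × ℂ × ℂ) × Y => z.1.1) z := by fun_prop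
    obtain ⟨c1, c1'⟩ := ch_sm a1 a2 n
    obtain ⟨c2, c2'⟩ := ch_sm a2 a1 n.symm
    have t1 := h.sm (sl.contDiffAt.mul c1) a1 a0
      (ks.comp (show ContDiff ℝ ∞ fun z : (ℂ × ℂ × ℂ) × Y => (z.1.1, z.2) by fun_prop)).contDiffAt
      fun q => (c1' q).mono fun x e => by simp only [e, mul_zero]
    have t2 := h.sm (sl.contDiffAt.mul c2) a2 a0 t1
      fun q => (c2' q).mono fun x e => by simp only [e, mul_zero]
    have sp : ContDiff ℝ ∞ fun z : (ℂ × ℂ × ℂ) × Y => piH p z.2 :=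
      contDiff_snd.sub (((u1_sm.comp contDiff_snd).sub
        (hp.sm.comp (u1_sm.comp contDiff_snd))).smul contDiff_const)
    exact ((contDiff_const.sub sm2).contDiffAt.smul t2).add (sm2.smul sp).contDiffAt
  · have e1 : ∀ a b, ch (c * a) (c * b) = ch a b := fun a b => by
      simp only [ch, norm_mul, hc, one_mul]
    have e2 : lm F w (c * ζ, act c η) = lm F w (ζ, η) := by
      simp only [lm, hF.inv _ _ _ hc, norm_mul, hc, one_mul]
    simp only [RR, c2c, e1, e2, hF.inv _ _ _ hc, ke _ _ _ hc, piH_act, act_add, act_smul]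
    rw [h.eqv hc fun q => by rw [q, ch_zero, mul_zero],
      h.eqv hc fun q => by rw [q, ch_zero, mul_zero]]
  · refine le_trans ?_ (le_max_right _ _)
    rcases le_total 30 ‖η‖ with q | q
    · rw [out l η (.inr q)]; simp
    rcases le_total (3 * w / 2) (F (l.1, η)) with a | a
    · rw [Rp l η (.inl a)]; simp
    have n1 : ‖k (l.1, η)‖ ≤ 31 := by
      linarith [(kk l.1 η (by linarith)).2, norm_sub_norm_le (k (l.1, η)) η]
    have n2 : ‖c2c F w D D' k (l, η)‖ ≤ 31 + 26 + 26 :=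
      h.nrm (l0 _ _ _) (l1 _ _ _) (by norm_num) (h.nrm (l0 _ _ _) (l1 _ _ _) (by norm_num) n1)
    have n3 : ‖piH p η‖ ≤ 90 := by
      refine (norm_sub_le _ _).trans ?_
      have := hp.lip (u1 η) 0
      rw [hp.id 0 le_rfl, sub_zero, sub_zero] at this
      rw [norm_smul, norm_ev, mul_one, Real.norm_eq_abs]
      linarith [abs_sub (u1 η) (p (u1 η)), abs_u1_le η]
    rw [show RR F w p D D' k (l, η) - piH p η = (1 - st (4 * F (l.1, η) / w - 5)) •
      (c2c F w D D' k (l, η) - piH p η) by simp only [RR]; module, norm_smul,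
      Real.norm_of_nonneg (sub_nonneg.2 (sl _))]
    nlinarith [norm_sub_le (c2c F w D D' k (l, η)) (piH p η), sn (4 * F (l.1, η) / w - 5),
      norm_nonneg (c2c F w D D' k (l, η) - piH p η)]
  · obtain ⟨-, c1, -, -, c2⟩ := kc _ _ a (by linarith)
    rw [Rk l η b]
    exact c2.trans (mul_le_mul_of_nonneg_right (le_max_left _ _) (by linarith))
  · have pu : u1 (piH p η) ≤ w / 2 := by rw [u1_piH]; linarith [hp.le _ b]
    rcases le_total (3 * w / 2) (F (l.1, η)) with q | q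
    · rw [Rp l η (.inl q)]; exact (hF.le _ _).trans pu
    have k1 := (kk l.1 η (by linarith)).1
    have v0 : 0 ≤ w / 2 := by linarith
    have v1 : w / 2 ≤ wI := by linarith
    have k2 := h.keep (a := l.2.1) hF (l0 (l.1, η) l.2.1 l.2.2) (lb _ _ _ _) v0 v1 k1
    have k3 : F (l.1, c2c F w D D' k (l, η)) ≤ w / 2 := h.keep hF (l0 _ _ _) (lb _ _ _ _) v0 v1 k2
    rcases le_total (F (l.1, η)) (5 * w / 4) with q' | q'
    · simpa only [RR, m0 l.1 η q', sub_zero, one_smul, zero_smul, add_zero] using k3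
    have k4 : u1 (c2c F w D D' k (l, η)) ≤ w / 2 := by
      rcases le_total 2 ‖l.1‖ with r | r
      · rwa [hF.out _ _ (.inl r)] at k3
      have e : lm F w (l.1, η) = 1 := by
        rw [lm, s1 (_ - 4) (by rw [le_sub_iff_add_le, le_div_iff₀ w0]; linarith),
          s1 (5 - _) (by simp only; nlinarith [norm_nonneg l.1]), one_mul]
      rcases le_total ‖l.2.2‖ ‖l.2.1‖ with r' | r'
      · have n : l.2.1 ≠ 0 := fun z => a (Prod.ext z (by simpa [z] using r'))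
        refine (h.tr (l0 _ _ _) ?_).1
        simp only [e, ch_one n r', one_mul]
        exact h.full hF (by linarith) v0 v1 (by linarith) k1
      · have n : l.2.2 ≠ 0 := fun z => a (Prod.ext (by simpa [z] using r') z)
        simp only [c2c, ch_one n r', mul_one]
        rw [e] at k2 ⊢
        exact (h.full hF (by linarith) v0 v1 (by linarith) k2).1
    refine (hF.le _ _).trans ?_
    simp only [RR, u1_add, u1_smul]
    nlinarith [sn (4 * F (l.1, η) / w - 5), sl (4 * F (l.1, η) / w - 5)]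

end

end Crest.Agent.N218.P
end

-- ▼ part N218/A/Whi
section

/-! Row 218, block A (helper28): the Whitney sphere sheet. -/

set_option autoImplicit false
open Set Function Filter Topology Metric
open scoped ContDiff

noncomputable section

namespace Crest.Agent.N218.Sh

namespace Wh

/-- the thickened Whitney sphere -/
def wm (n : E 3 × E 3) : ℝ × E 3 :=
  (n.1 1 - n.2 0 * n.1 1 - n.1 0 * n.2 1,
    !₂[n.1 2 - n.2 0 * n.1 2 - n.1 0 * n.2 2, n.1 0 * n.1 1 + n.2 1, n.1 0 * n.1 2 + n.2 2])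

theorem wm_smooth : ContDiff ℝ ∞ wm := by
  refine ContDiff.prodMk (by fun_prop) (contDiff_euclidean.2 fun i => ?_)
  fin_cases i <;> simp <;> fun_prop

/-- with the position -/
def Xi (k : ℝ) (p : (E 3 × E 3) × ℝ) : (ℝ × E 3) × ℝ := (k • wm p.1, p.1.1 0 + p.2)

theorem Xi_smooth (k : ℝ) : ContDiff ℝ ∞ (Xi k) :=
  ((wm_smooth.comp contDiff_fst).const_smul k).prodMk (by fun_prop)

/-- with the constraints -/
def Th (k : ℝ) (p : (E 3 × E 3) × ℝ) : ((ℝ × E 3) × ℝ) × ℝ × ℝ :=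
  (Xi k p, p.1.1 0 * p.1.1 0 + p.1.1 1 * p.1.1 1 + p.1.1 2 * p.1.1 2 - 1,
    p.1.1 0 * p.1.2 0 + p.1.1 1 * p.1.2 1 + p.1.1 2 * p.1.2 2)

theorem Th_smooth (k : ℝ) : ContDiff ℝ ∞ (Th k) :=
  (Xi_smooth k).prodMk (by fun_prop)

theorem nsq (a : E 3) : ‖a‖ = 1 ↔ a 0 * a 0 + a 1 * a 1 + a 2 * a 2 - 1 = 0 := by
  rw [← sq_eq_sq₀ (norm_nonneg a) zero_le_one, EuclideanSpace.real_norm_sq_eq, Fin.sum_univ_three]
  constructor <;> intro h <;> linarith

theorem N0_iff (k : ℝ) (p : (E 3 × E 3) × ℝ) : p.1 ∈ N0 ↔ (Th k p).2 = 0 := by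
  have : inner ℝ p.1.1 p.1.2 = p.1.1 0 * p.1.2 0 + p.1.1 1 * p.1.2 1 + p.1.1 2 * p.1.2 2 := by
    simp [PiLp.inner_apply, Fin.sum_univ_three, mul_comm]
  simp only [N0, mem_ofPred_eq, Th, Prod.mk_eq_zero, nsq, this]

theorem quad0 {g : ℝ → ℝ} {A B C : ℝ} (h : HasDerivAt g 0 0)
    (e : ∀ t, g t = A + B * t + C * (t * t)) : B = 0 := by
  have h1 : HasDerivAt (fun t : ℝ => A + B * t + C * (t * t)) (B * 1 + C * (1 * 0 + 0 * 1)) 0 :=
    (((hasDerivAt_id (0 : ℝ)).const_mul B).const_add A).add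
      (((hasDerivAt_id (0 : ℝ)).mul (hasDerivAt_id (0 : ℝ))).const_mul C)
  have := (h1.congr_of_eventuallyEq (.of_forall e)).unique h
  simpa using this

theorem Th_imm {k : ℝ} (hk : k ≠ 0) {a : E 3} (ha : ‖a‖ = 1) :
    Injective (fderiv ℝ (Th k) ((a, 0), 0)) := by
  rw [injective_iff_map_eq_zero]
  rintro ⟨⟨v, ζ⟩, e⟩ h
  have d0 : HasDerivAt (fun t : ℝ => (((a, 0), 0) : (E 3 × E 3) × ℝ) + t • ((v, ζ), e))
      ((v, ζ), e) 0 := by
    simpa using ((hasDerivAt_id (0 : ℝ)).smul_const (((v, ζ), e) : (E 3 × E 3) × ℝ)).const_add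
      ((a, 0), 0)
  have d1 := ((Th_smooth k).differentiable (by simp) ((a, 0), 0)).hasFDerivAt.comp_hasDerivAt_of_eq
    0 d0 (by simp)
  rw [h] at d1
  have key : ∀ (φ : (((ℝ × E 3) × ℝ) × ℝ × ℝ) →L[ℝ] ℝ) (A B C : ℝ),
      (∀ t : ℝ, φ (Th k (((a, 0), 0) + t • ((v, ζ), e))) = A + B * t + C * (t * t)) → B = 0 :=
    fun φ A B C h => quad0 ((φ.hasFDerivAt.comp_hasDerivAt 0 d1).congr_deriv (map_zero φ)) h
  let p1 := ContinuousLinearMap.fst ℝ ((ℝ × E 3) × ℝ) (ℝ × ℝ)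
  let p2 := ContinuousLinearMap.snd ℝ ((ℝ × E 3) × ℝ) (ℝ × ℝ)
  let p3 := (ContinuousLinearMap.fst ℝ (ℝ × E 3) ℝ).comp p1
  let p4 := fun i : Fin 3 => (EuclideanSpace.proj (𝕜 := ℝ) i).comp
    ((ContinuousLinearMap.snd ℝ ℝ (E 3)).comp p3)
  have x1 := key ((ContinuousLinearMap.fst ℝ ℝ (E 3)).comp p3) (k * a 1)
    (k * (v 1 - ζ 0 * a 1 - a 0 * ζ 1)) (k * (-(ζ 0 * v 1) - v 0 * ζ 1)) fun t => by
      simp [p1, p3, Th, Xi, wm]; ring
  have x2 := key (p4 0) (k * a 2)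
    (k * (v 2 - ζ 0 * a 2 - a 0 * ζ 2)) (k * (-(ζ 0 * v 2) - v 0 * ζ 2)) fun t => by
      simp [p1, p3, p4, Th, Xi, wm]; ring
  have y1 := key (p4 1) (k * (a 0 * a 1))
    (k * (v 0 * a 1 + a 0 * v 1 + ζ 1)) (k * (v 0 * v 1)) fun t => by
      simp [p1, p3, p4, Th, Xi, wm]; ring
  have y2 := key (p4 2) (k * (a 0 * a 2))
    (k * (v 0 * a 2 + a 0 * v 2 + ζ 2)) (k * (v 0 * v 2)) fun t => by
      simp [p1, p3, p4, Th, Xi, wm]; ring
  have e0 := key ((ContinuousLinearMap.snd ℝ (ℝ × E 3) ℝ).comp p1) (a 0) (v 0 + e) 0 fun t => by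
      simp [p1, Th, Xi]; ring
  have c1 := key ((ContinuousLinearMap.fst ℝ ℝ ℝ).comp p2)
    (a 0 * a 0 + a 1 * a 1 + a 2 * a 2 - 1) (2 * (a 0 * v 0 + a 1 * v 1 + a 2 * v 2))
    (v 0 * v 0 + v 1 * v 1 + v 2 * v 2) fun t => by
      simp [p2, Th]; ring
  have c2 := key ((ContinuousLinearMap.snd ℝ ℝ ℝ).comp p2) 0
    (a 0 * ζ 0 + a 1 * ζ 1 + a 2 * ζ 2) (v 0 * ζ 0 + v 1 * ζ 1 + v 2 * ζ 2) fun t => by
      simp [p2, Th]; ring
  have n := (nsq a).1 ha
  replace x1 := (mul_eq_zero.1 x1).resolve_left hk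
  replace x2 := (mul_eq_zero.1 x2).resolve_left hk
  replace y1 := (mul_eq_zero.1 y1).resolve_left hk
  replace y2 := (mul_eq_zero.1 y2).resolve_left hk
  have u1 : a 0 * v 0 + (1 - 2 * a 0 * a 0) * ζ 0 = 0 := by
    linear_combination (-(a 1)) * x1 - a 2 * x2 + (1 / 2) * c1 - a 0 * c2 - ζ 0 * n
  have u2 : (1 - 2 * a 0 * a 0) * v 0 - a 0 * ζ 0 = 0 := by
    linear_combination a 1 * y1 + a 2 * y2 - (a 0 / 2) * c1 - c2 - v 0 * n
  have pos : 0 < a 0 * a 0 + (1 - 2 * a 0 * a 0) * (1 - 2 * a 0 * a 0) := by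
    nlinarith [sq_nonneg (a 0 * a 0 - 3 / 8)]
  have v0 : v 0 = 0 := (mul_eq_zero.1 (show (a 0 * a 0 + (1 - 2 * a 0 * a 0) *
    (1 - 2 * a 0 * a 0)) * v 0 = 0 by
      linear_combination a 0 * u1 + (1 - 2 * a 0 * a 0) * u2)).resolve_left pos.ne'
  have z0 : ζ 0 = 0 := (mul_eq_zero.1 (show (a 0 * a 0 + (1 - 2 * a 0 * a 0) *
    (1 - 2 * a 0 * a 0)) * ζ 0 = 0 by
      linear_combination (1 - 2 * a 0 * a 0) * u1 - a 0 * u2)).resolve_left pos.ne'
  have pos2 : (1 + a 0 * a 0) ≠ 0 := by nlinarith [mul_self_nonneg (a 0)]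
  rw [v0] at y1 y2 e0
  rw [z0] at x1 x2
  have z1 : ζ 1 = 0 := (mul_eq_zero.1 (show (1 + a 0 * a 0) * ζ 1 = 0 by
    linear_combination y1 - a 0 * x1)).resolve_left pos2
  have z2 : ζ 2 = 0 := (mul_eq_zero.1 (show (1 + a 0 * a 0) * ζ 2 = 0 by
    linear_combination y2 - a 0 * x2)).resolve_left pos2
  have v1 : v 1 = 0 := by rw [z1] at x1; linarith
  have v2 : v 2 = 0 := by rw [z2] at x2; linarith
  refine Prod.ext (Prod.ext ?_ ?_) (by simpa using e0)
  · ext i; fin_cases i <;> simpa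
  · ext i; fin_cases i <;> simpa

theorem bij_of_inj {A : ((E 3 × E 3) × ℝ) →L[ℝ] ((ℝ × E 3) × ℝ) × ℝ × ℝ} (h : Injective A) :
    Bijective A :=
  ⟨h, (LinearMap.injective_iff_surjective_of_finrank_eq_finrank
    (f := (A : ((E 3 × E 3) × ℝ) →ₗ[ℝ] ((ℝ × E 3) × ℝ) × ℝ × ℝ)) (by simp)).1 h⟩

/-- the zero section -/
def K0 : Set ((E 3 × E 3) × ℝ) := (fun a : E 3 => ((a, 0), 0)) '' sphere 0 1

theorem K0_cpt : IsCompact K0 := (isCompact_sphere _ _).image (by fun_prop)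

theorem exists_nhd {k : ℝ} (hk : k ≠ 0) : ∃ T, IsOpen T ∧ K0 ⊆ T ∧ InjOn (Th k) T ∧
    ∀ p ∈ T, Bijective (fderiv ℝ (Th k) p) := by
  have sm := Th_smooth k
  obtain ⟨t, ht, hi⟩ := InjOn.exists_mem_nhdsSet (f := Th k) (s := K0) (by
      rintro _ ⟨a, -, rfl⟩ _ ⟨b, -, rfl⟩ e
      have e0 : a 0 = b 0 := by simpa [Th, Xi] using congrArg (fun x => x.1.2) e
      have e1 : a 1 = b 1 := by simpa [Th, Xi, wm, hk] using congrArg (fun x => x.1.1.1) e
      have e2 : a 2 = b 2 := by simpa [Th, Xi, wm, hk] using congrArg (fun x => x.1.1.2 0) e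
      have : a = b := by ext i; fin_cases i <;> simpa
      rw [this]) K0_cpt (fun x _ => sm.continuous.continuousAt) (by
      rintro _ ⟨a, ha, rfl⟩
      let e := (LinearEquiv.ofBijective (fderiv ℝ (Th k) ((a, 0), 0)).toLinearMap
        (bij_of_inj (Th_imm hk (by simpa using ha)))).toContinuousLinearEquiv
      have hf : HasStrictFDerivAt (Th k) e.toContinuousLinearMap ((a, 0), 0) :=
        sm.contDiffAt.hasStrictFDerivAt (by simp)
      exact ⟨_, (hf.toOpenPartialHomeomorph _).open_source.mem_nhds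
        hf.mem_toOpenPartialHomeomorph_source, (hf.toOpenPartialHomeomorph _).injOn⟩)
  obtain ⟨U, hU, h1, h2⟩ := mem_nhdsSet_iff_exists.1 ht
  have op := ContinuousLinearMap.isOpen_injective.preimage (sm.continuous_fderiv (by simp))
  refine ⟨_, hU.inter op, fun p hp => ⟨h1 hp, ?_⟩, hi.mono fun p hp => h2 hp.1,
    fun p hp => bij_of_inj hp.2⟩
  obtain ⟨a, ha, rfl⟩ := hp
  exact Th_imm hk (by simpa using ha)

end Wh

open Wh in
theorem whi : WHI := by
  intro ρ hρ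
  obtain ⟨C, hC⟩ := K0_cpt.exists_bound_of_continuousOn
    (f := fun p => wm p.1) (wm_smooth.continuous.comp continuous_fst).continuousOn
  have C0 : 0 < |C| + 1 := by positivity
  set k := ρ / (|C| + 1) with hk
  have k0 : 0 < k := by positivity
  obtain ⟨T, hT, h1, hi, hb⟩ := exists_nhd k0.ne'
  have cX := (Xi_smooth k).continuous
  have hT' : IsOpen (T ∩ {p | ‖(Xi k p).1‖ < ρ}) :=
    hT.inter (isOpen_lt cX.fst.norm continuous_const)
  obtain ⟨r, r0, hr⟩ := K0_cpt.exists_thickening_subset_open hT' fun p hp => ⟨h1 hp, by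
    have := hC p hp
    change ‖k • wm p.1‖ < ρ
    rw [norm_smul, Real.norm_of_nonneg k0.le, hk, div_mul_eq_mul_div, div_lt_iff₀ C0]
    nlinarith [le_abs_self C]⟩
  have mem : ∀ n ∈ N0, ‖n.2‖ < r → ∀ η : ℝ, ‖η‖ < r → (n, η) ∈ T ∧ ‖(Xi k (n, η)).1‖ < ρ :=
    fun n hn h2 η h3 => hr (mem_thickening_iff.2 ⟨((n.1, 0), 0), ⟨n.1, by simpa using hn.1, rfl⟩, by
      simp only [Prod.dist_eq, dist_self, dist_zero_right, max_lt_iff]
      exact ⟨⟨r0, h2⟩, h3⟩⟩)
  set D : Set ((E 3 × E 3) × ℝ) := T ∩ {p | ‖p.1.2‖ < r ∧ ‖p.2‖ < r}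
  have c1 : Continuous fun p : (E 3 × E 3) × ℝ => ‖p.1.2‖ := by fun_prop
  have c2 : Continuous fun p : (E 3 × E 3) × ℝ => ‖p.2‖ := by fun_prop
  have c3 : Continuous fun p : (E 3 × E 3) × ℝ => ‖p.1.1‖ := by fun_prop
  have c4 : Continuous fun p : (E 3 × E 3) × ℝ => inner ℝ p.1.1 p.1.2 := by fun_prop
  have hD : IsOpen D := hT.inter ((isOpen_lt c1 continuous_const).inter
    (isOpen_lt c2 continuous_const))
  have iD : InjOn (Th k) D := hi.mono inter_subset_left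
  obtain ⟨ho, hm⟩ := inv_smooth hD (Th_smooth k).contDiffOn iD fun d hd => hb d hd.1
  set g := fun x : (ℝ × E 3) × ℝ => invFunOn (Th k) D (x, 0)
  set O := {x : (ℝ × E 3) × ℝ | (x, (0 : ℝ × ℝ)) ∈ Th k '' D}
  have sg : ContDiffOn ℝ ∞ g O := hm.comp (f := fun x => (x, 0)) (by fun_prop) fun x hx => hx
  have a1 : ∀ n ∈ N0, ‖n.2‖ < r → ∀ η : ℝ, ‖η‖ < r → Xi k (n, η) ∈ O ∧ g (Xi k (n, η)) = (n, η) :=
    fun n hn h2 η h3 => by
      have e : (Xi k (n, η), (0 : ℝ × ℝ)) = Th k (n, η) :=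
        Prod.ext rfl ((N0_iff k (n, η)).1 hn).symm
      have m : (n, η) ∈ D := ⟨(mem n hn h2 η h3).1, h2, h3⟩
      exact ⟨⟨_, m, e.symm⟩, by simp only [g, e, iD.leftInvOn_invFunOn m]⟩
  have a2 : ∀ x ∈ O, ∃ n ∈ N0, ‖n.2‖ < r ∧ ∃ η : ℝ, ‖η‖ < r ∧ x = Xi k (n, η) ∧ g x = (n, η) := by
    rintro x ⟨⟨n, η⟩, m, e⟩
    have hn : n ∈ N0 := (N0_iff k (n, η)).2 (by rw [e])
    have e1 : x = Xi k (n, η) := (congrArg Prod.fst e).symm
    exact ⟨n, hn, m.2.1, η, m.2.2, e1, e1 ▸ (a1 n hn m.2.1 η m.2.2).2⟩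
  refine ⟨⟨O, fun x => (g x).1, fun x => (g x).2, r, r0, ho.preimage (by fun_prop), sg.fst, sg.snd,
    fun x hx => ?_, fun x hx => ?_, fun x hx η' h' => ?_, fun a ha b hb => ?_⟩, Xi k, cX,
    fun x hx => ?_, fun n hn h2 η h3 => ?_⟩
  · obtain ⟨n, -, h2, η, h3, -, e⟩ := a2 x hx
    rw [e]; exact ⟨h2, h3⟩
  · obtain ⟨n, hn, -, η, -, e1, e⟩ := a2 x hx
    rw [e, e1]
    simpa [Xi] using (PiLp.norm_apply_le n.1 0).trans hn.1.le
  · obtain ⟨n, hn, h2, η, h3, e1, e⟩ := a2 x hx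
    have e2 : (x.1, x.2 - (g x).2 + η') = Xi k (n, η') := by rw [e, e1]; simp [Xi]
    rw [e2, (a1 n hn h2 η' h').2, e]
    exact ⟨(a1 n hn h2 η' h').1, rfl, rfl⟩
  · have cl : IsClosed {p : (E 3 × E 3) × ℝ | p.1 ∈ N0 ∧ ‖p.1.2‖ ≤ a ∧ ‖p.2‖ ≤ b} :=
      ((isClosed_eq c3 continuous_const).inter (isClosed_eq c4 continuous_const)).inter
        ((isClosed_le c1 continuous_const).inter (isClosed_le c2 continuous_const))
    have cp := ((isCompact_closedBall (0 : (E 3 × E 3) × ℝ) (max (max 1 a) b)).of_isClosed_subset cl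
      fun p hp => by
        rw [mem_closedBall_zero_iff, Prod.norm_def, Prod.norm_def, hp.1.1]
        exact max_le_max (max_le_max le_rfl hp.2.1) hp.2.2).image cX
    refine (congrArg IsCompact (Set.ext fun x => ?_)).mp cp
    constructor
    · rintro ⟨⟨n, η⟩, ⟨hn, h2, h3⟩, rfl⟩
      obtain ⟨m, e⟩ := a1 n hn (h2.trans_lt ha) η (h3.trans_lt hb)
      refine ⟨m, ?_⟩
      rw [e]; exact ⟨h2, h3⟩
    · rintro ⟨hx, h⟩
      obtain ⟨n, hn, -, η, -, e1, e⟩ := a2 x hx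
      rw [e] at h
      exact ⟨(n, η), ⟨hn, h⟩, e1.symm⟩
  · obtain ⟨n, hn, h2, η, h3, e1, e⟩ := a2 x hx
    simp only [e]
    exact ⟨e1 ▸ (mem n hn h2 η h3).2, hn, e1.symm⟩
  · obtain ⟨m, e⟩ := a1 n hn h2 η h3
    simp only [e]
    exact ⟨m, trivial, trivial⟩

end Crest.Agent.N218.Sh
end
end

-- ▼ part N218/A/TotI

/-! The composite sheet exists (helper3). -/

namespace Crest.Agent.N218.Sh

theorem totI : TOT := tot sig whi

end Crest.Agent.N218.Sh
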